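import Vale.Agent.P231.WF.UecUT

/-!
# P231, stage 3, (N1), part 1: directions of chords, interpolation on the unit tangent bundle

`chd e v₀ x y` is the unit direction at `x` of the minimal geodesic to `y` (for `0 < dist x y < D`).
`Itp e v₀ h v w s` interpolates between the unit vectors `v` and `w`: it is the direction of the
chord from the point `s` of the geodesic from `foot v` to `foot w` to the point `s` of the geodesic
from `gm (v, h)` to `gm (w, h)`.
-/

set_option maxSynthPendingDepth 3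
set_option linter.unusedSectionVars false
set_option linter.unusedVariables false

open Bundle Manifold Set Filter Module
open scoped ContDiff Manifold Topology

namespace Vale.Agent.P231.S3R

noncomputable section

open Vale.Agent.P234 Vale.Agent.P231 Vale.Agent.P231.H775 Vale.Agent.P231.Fm Vale.Agent.P231.W
  Vale.Agent.P231.WD3

section Defs

variable {E : Type*} [NormedAddCommGroup E] [NormedSpace ℝ E] [FiniteDimensional ℝ E]
  {M : Type*} [MetricSpace M] [ChartedSpace E M] [IsManifold 𝓘(ℝ, E) ∞ M]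
  [RiemannianBundle (fun x : M => TangentSpace 𝓘(ℝ, E) x)]
  [IsContMDiffRiemannianBundle 𝓘(ℝ, E) ∞ E (fun x : M => TangentSpace 𝓘(ℝ, E) x)]

open Classical in
/-- the direction of the minimal geodesic from `x` to `y` -/
def chd (e : ∀ x : M, TangentSpace 𝓘(ℝ, E) x → M) (v₀ : UT E M) (x y : M) : UT E M :=
  if h : nm x ((nm x (lm e x y))⁻¹ • lm e x y : E) = 1 then mk x _ h else v₀

/-- interpolation of unit vectors -/
def Itp (e : ∀ x : M, TangentSpace 𝓘(ℝ, E) x → M) (v₀ : UT E M) (h : ℝ) (v w : UT E M) (s : ℝ) :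
    UT E M :=
  chd e v₀ (gG e (foot v) (foot w) s) (gG e (gm e (v, h)) (gm e (w, h)) s)

end Defs

variable {E : Type*} [NormedAddCommGroup E] [NormedSpace ℝ E] [FiniteDimensional ℝ E]
  {M : Type*} [MetricSpace M] [ChartedSpace E M] [IsManifold 𝓘(ℝ, E) ∞ M]
  [RiemannianBundle (fun x : M => TangentSpace 𝓘(ℝ, E) x)]
  [IsContMDiffRiemannianBundle 𝓘(ℝ, E) ∞ E (fun x : M => TangentSpace 𝓘(ℝ, E) x)]
  {e : ∀ x : M, TangentSpace 𝓘(ℝ, E) x → M}
  [CompactSpace M] [ConnectedSpace M] [IsRiemannianManifold 𝓘(ℝ, E) M]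

theorem nm_unit (F : Facts e) {D : ℝ} (hB : InjGE e D) {x y : M} (h0 : 0 < dist x y)
    (h1 : dist x y < D) : nm x ((nm x (lm e x y))⁻¹ • lm e x y : E) = 1 := by
  rw [nm_smul, nm_lm F hB h1, abs_inv, abs_of_pos h0, inv_mul_cancel₀ h0.ne']

theorem chd_eq (F : Facts e) {D : ℝ} (hB : InjGE e D) (v₀ : UT E M) {x y : M} (h0 : 0 < dist x y)
    (h1 : dist x y < D) : chd e v₀ x y = mk x _ (nm_unit F hB h0 h1) :=
  dif_pos (nm_unit F hB h0 h1)

theorem foot_chd (F : Facts e) {D : ℝ} (hB : InjGE e D) (v₀ : UT E M) {x y : M}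
    (h0 : 0 < dist x y) (h1 : dist x y < D) : foot (chd e v₀ x y) = x := by
  rw [chd_eq F hB v₀ h0 h1, foot_mk]

theorem gm_chd (F : Facts e) {D : ℝ} (hB : InjGE e D) (v₀ : UT E M) {x y : M}
    (h0 : 0 < dist x y) (h1 : dist x y < D) : gm e (chd e v₀ x y, dist x y) = y := by
  rw [chd_eq F hB v₀ h0 h1, gm, foot_mk, vec'_mk]
  change e x (dist x y • ((nm x (lm e x y))⁻¹ • lm e x y) : E) = y
  rw [nm_lm F hB h1, smul_smul, mul_inv_cancel₀ h0.ne', one_smul, exp_lm F hB h1]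

theorem dist_foot_gm {D : ℝ} (hB : InjGE e D) (v : UT E M)
    {t : ℝ} (h0 : 0 ≤ t) (h1 : t ≤ D) : dist (foot v) (gm e (v, t)) = t := by
  have h2 := nm_smul (E := E) (foot v) (vec' v) t
  rw [nm_vec' v, mul_one, abs_of_nonneg h0] at h2
  exact (hB (foot v) (t • vec' v : E) (h2.le.trans h1)).trans h2

theorem chd_gm (F : Facts e) {D : ℝ} (hB : InjGE e D) (v₀ v : UT E M) {t : ℝ} (h0 : 0 < t)
    (h1 : t < D) : chd e v₀ (foot v) (gm e (v, t)) = v := by
  have hd : dist (foot v) (gm e (v, t)) = t := dist_foot_gm hB v h0.le h1.le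
  have h2 := nm_smul (E := E) (foot v) (vec' v) t
  rw [nm_vec' v, mul_one, abs_of_nonneg h0.le] at h2
  have h3 : lm e (foot v) (gm e (v, t)) = t • vec' v := lm_eq F hB (by rw [h2]; exact h1)
  rw [chd_eq F hB v₀ (by rw [hd]; exact h0) (by rw [hd]; exact h1)]
  conv_rhs => rw [← mk_eta v]
  refine mk_congr rfl ?_
  rw [h3, h2, smul_smul, inv_mul_cancel₀ h0.ne', one_smul]

/-- the direction of the chord is smooth -/
theorem At_chd (F : Facts e) {D : ℝ} (hB : InjGE e D) (v₀ : UT E M) {V : Type}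
    [NormedAddCommGroup V] [NormedSpace ℝ V] [FiniteDimensional ℝ V] {a b : V → M} {s : V}
    (ha : (dM E M).At a s) (hb : (dM E M).At b s) (h0 : 0 < dist (a s) (b s))
    (h1 : dist (a s) (b s) < D) : (dUT E M).At (fun t => chd e v₀ (a t) (b t)) s := by
  have ha' : ∀ᶠ y in 𝓝 s, ContMDiffAt 𝓘(ℝ, V) 𝓘(ℝ, E) ∞ a y := ha
  have hb' : ∀ᶠ y in 𝓝 s, ContMDiffAt 𝓘(ℝ, V) 𝓘(ℝ, E) ∞ b y := hb
  have hc : ContinuousAt (fun y => dist (a y) (b y)) s :=
    ha'.self_of_nhds.continuousAt.dist hb'.self_of_nhds.continuousAt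
  have e0 : ∀ᶠ y in 𝓝 s, 0 < dist (a y) (b y) := hc.eventually_const_lt h0
  have e1 : ∀ᶠ y in 𝓝 s, dist (a y) (b y) < D := hc.eventually_lt_const h1
  have h2 : (dTM E M).At (Subtype.val ∘ fun t => chd e v₀ (a t) (b t)) s := by
    have h3 : ∀ᶠ y in 𝓝 s, ContMDiffAt 𝓘(ℝ, V) 𝓘(ℝ, E).tangent ∞
        (Subtype.val ∘ fun t => chd e v₀ (a t) (b t)) y := by
      filter_upwards [ha', hb', e0, e1, (e0.and e1).eventually_nhds] with y ha hb h0 h1 h2
      have h4 : SmV a (fun t => (lm e (a t) (b t) : E)) y := smV_lm F hB ha hb h1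
      have h5 : ContDiffAt ℝ ∞ (fun t => nm (a t) (lm e (a t) (b t)) ^ 2) y := h4.norm_sq
      have h6 : nm (a y) (lm e (a y) (b y)) ≠ 0 := by
        rw [nm_lm F hB h1]
        exact h0.ne'
      have h6' : ∀ t, Real.sqrt (nm (a t) (lm e (a t) (b t)) ^ 2) = nm (a t) (lm e (a t) (b t)) :=
        fun t => Real.sqrt_sq (nm_nonneg _ _)
      have h7 : nm (a y) (lm e (a y) (b y)) ^ 2 ≠ 0 := pow_ne_zero 2 h6
      have h8 : ContDiffAt ℝ ∞ (fun t => nm (a t) (lm e (a t) (b t))) y := by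
        have := h5.sqrt h7
        simp only [h6'] at this
        exact this
      have h9 : ContDiffAt ℝ ∞ (fun t => (nm (a t) (lm e (a t) (b t)))⁻¹) y := h8.inv h6
      have h10 : ContMDiffAt 𝓘(ℝ, V) 𝓘(ℝ, E).tangent ∞ (fun t =>
          tb (a t) ((nm (a t) (lm e (a t) (b t)))⁻¹ • lm e (a t) (b t) : E)) y := SmV.smul h9 h4
      refine ContMDiffAt.congr_of_eventuallyEq h10 ?_
      filter_upwards [h2] with t ht
      exact congrArg Subtype.val (chd_eq F hB v₀ ht.1 ht.2)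
    exact h3
  exact h2

/-! ### closeness -/

theorem dist_gm_gm (F : Facts e) {D : ℝ} (hB : InjGE e D) (v : UT E M) {s t : ℝ}
    (h : |t - s| ≤ D) : dist (gm e (v, s)) (gm e (v, t)) = |t - s| := by
  have h1 : gm e (v, t) = gm e (phi F (v, s), t - s) := by rw [gm_phi, add_sub_cancel]
  rw [h1]
  have h2 := nm_smul (E := E) (foot (phi F (v, s))) (vec' (phi F (v, s))) (t - s)
  rw [nm_vec' (phi F (v, s)), mul_one] at h2
  exact (hB (foot (phi F (v, s))) ((t - s) • vec' (phi F (v, s)) : E) (h2.le.trans h)).trans h2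

theorem gm_add_per (F : Facts e) {D : ℝ} (hD : 0 < D) (hB : InjGE e D)
    (hdiam : ∀ p q : M, dist p q ≤ D) (v : UT E M) (t : ℝ) :
    gm e (v, t + 2 * D) = gm e (v, t) := by
  rw [add_comm, ← gm_phi F, phi_per F hD hB hdiam]

/-- a chord near a unit vector -/
theorem chd_near (F : Facts e) {D : ℝ} (hB : InjGE e D) (v₀ : UT E M) {h κ : ℝ} (h0 : 0 < h)
    (h1 : h < D) (k1 : 2 * κ < h) (k2 : 2 * κ < D - h) {v : UT E M} {x y : M}
    (hx : dist (foot v) x ≤ κ) (hy : dist (gm e (v, h)) y ≤ κ) :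
    0 < dist x y ∧ dist x y < D ∧ foot (chd e v₀ x y) = x ∧
      dist (gm e (v, h)) (gm e (chd e v₀ x y, h)) ≤ 3 * κ := by
  have hκ : 0 ≤ κ := dist_nonneg.trans hx
  have h4 : dist (foot v) (gm e (v, h)) = h := dist_foot_gm hB v h0.le h1.le
  have h5 := dist_triangle4 (foot v) x y (gm e (v, h))
  have h6 := dist_triangle4 x (foot v) (gm e (v, h)) y
  rw [dist_comm y (gm e (v, h))] at h5
  rw [dist_comm x (foot v)] at h6
  have h7 : 0 < dist x y := by linarith
  have h8 : dist x y < D := by linarith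
  refine ⟨h7, h8, foot_chd F hB v₀ h7 h8, ?_⟩
  have h9 : |h - dist x y| ≤ 2 * κ := by
    rw [abs_le]
    constructor <;> linarith
  have h10 := dist_gm_gm F hB (chd e v₀ x y) (s := dist x y) (t := h) (by linarith)
  rw [gm_chd F hB v₀ h7 h8] at h10
  have h11 := dist_triangle (gm e (v, h)) y (gm e (chd e v₀ x y, h))
  linarith

section Top

attribute [local instance] Vale.Agent.P231.WF.topUT

theorem continuous_gm (F : Facts e) : Continuous fun p : UT E M × ℝ => gm e p :=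
  WF.continuous_of_map_dUT_prod (WF.plotsCont_dM E M) (map_gm F)

theorem continuous_gm_right (F : Facts e) (v : UT E M) : Continuous fun t : ℝ => gm e (v, t) :=
  (continuous_gm F).comp (Continuous.prodMk_right v)

/-- two geodesics which are close at the times `0` and `h` are close at all times -/
theorem unif (F : Facts e) {D : ℝ} (hD : 0 < D) (hB : InjGE e D)
    (hdiam : ∀ p q : M, dist p q ≤ D) {h : ℝ} (h0 : 0 < h) (h1 : h < D) {η : ℝ} (hη : 0 < η) :
    ∃ κ : ℝ, 0 < κ ∧ ∀ v w : UT E M, dist (foot v) (foot w) ≤ κ →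
      dist (gm e (v, h)) (gm e (w, h)) ≤ κ → ∀ t, dist (gm e (v, t)) (gm e (w, t)) < η := by
  have : CompactSpace (UT E M) := WF.compactSpace_UT
  have hgm := continuous_gm (E := E) (M := M) F
  set K : Set ((UT E M × UT E M) × ℝ) := (univ ×ˢ Icc (0 : ℝ) (2 * D)) ∩
    {p | η ≤ dist (gm e (p.1.1, p.2)) (gm e (p.1.2, p.2))} with hK
  have hKc : IsCompact K := by
    refine (isCompact_univ.prod isCompact_Icc).inter_right (isClosed_le continuous_const ?_)
    refine Continuous.dist ?_ ?_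
    · exact hgm.comp ((continuous_fst.comp continuous_fst).prodMk continuous_snd)
    · exact hgm.comp ((continuous_snd.comp continuous_fst).prodMk continuous_snd)
  set f : (UT E M × UT E M) × ℝ → ℝ := fun p =>
    max (dist (foot p.1.1) (foot p.1.2)) (dist (gm e (p.1.1, h)) (gm e (p.1.2, h))) with hf
  have hfc : Continuous f := by
    refine Continuous.max ?_ ?_
    · exact (WF.continuous_foot.comp (continuous_fst.comp continuous_fst)).dist
        (WF.continuous_foot.comp (continuous_snd.comp continuous_fst))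
    · exact (hgm.comp ((continuous_fst.comp continuous_fst).prodMk continuous_const)).dist
        (hgm.comp ((continuous_snd.comp continuous_fst).prodMk continuous_const))
  have key : ∃ κ : ℝ, 0 < κ ∧ ∀ p ∈ K, κ < f p := by
    rcases K.eq_empty_or_nonempty with hE | hE
    · exact ⟨1, one_pos, fun p hp => by rw [hE] at hp; exact absurd hp (notMem_empty p)⟩
    · obtain ⟨p₀, hp₀, hmin⟩ := hKc.exists_isMinOn hE hfc.continuousOn
      have hpos : 0 < f p₀ := by
        by_contra hneg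
        have h2 : dist (foot p₀.1.1) (foot p₀.1.2) ≤ 0 :=
          (le_max_left _ _).trans (not_lt.1 hneg)
        have h3 : dist (gm e (p₀.1.1, h)) (gm e (p₀.1.2, h)) ≤ 0 :=
          (le_max_right _ _).trans (not_lt.1 hneg)
        have h4 : foot p₀.1.1 = foot p₀.1.2 := dist_le_zero.1 h2
        have h5 : gm e (p₀.1.1, h) = gm e (p₀.1.2, h) := dist_le_zero.1 h3
        have h6 : p₀.1.1 = p₀.1.2 := by
          rw [← chd_gm F hB p₀.1.1 p₀.1.1 h0 h1, h4, h5, chd_gm F hB p₀.1.1 p₀.1.2 h0 h1]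
        have h7 : η ≤ dist (gm e (p₀.1.1, p₀.2)) (gm e (p₀.1.2, p₀.2)) := hp₀.2
        rw [h6, dist_self] at h7
        linarith
      exact ⟨f p₀ / 2, half_pos hpos, fun p hp => (half_lt_self hpos).trans_le (hmin hp)⟩
  obtain ⟨κ, hκ, hK2⟩ := key
  refine ⟨κ, hκ, fun v w h2 h3 t => ?_⟩
  by_contra hneg
  have hper : Function.Periodic (fun t => dist (gm e (v, t)) (gm e (w, t))) (2 * D) := fun t => by
    change dist (gm e (v, t + 2 * D)) (gm e (w, t + 2 * D)) = _
    rw [gm_add_per F hD hB hdiam, gm_add_per F hD hB hdiam]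
  obtain ⟨s, hs, hs2⟩ := hper.exists_mem_Ico₀ (by positivity) t
  have h4 : η ≤ dist (gm e (v, s)) (gm e (w, s)) := by
    have := not_lt.1 hneg
    exact this.trans hs2.le
  have h5 := hK2 ((v, w), s) ⟨⟨trivial, ⟨hs.1, hs.2.le⟩⟩, h4⟩
  exact absurd (max_le h2 h3) (not_le.2 h5)

end Top

/-! ### interpolation -/

section Itp

variable (F : Facts e) {D : ℝ} (hB : InjGE e D) (v₀ : UT E M) {h : ℝ} (h0 : 0 < h) (h1 : h < D)

include F hB h0 h1 in
theorem Itp_zero (v w : UT E M) : Itp e v₀ h v w 0 = v := by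
  rw [Itp, gG_zero F, gG_zero F, chd_gm F hB v₀ v h0 h1]

include F hB h0 h1 in
theorem Itp_one {v w : UT E M} (hf : dist (foot v) (foot w) < D)
    (hg : dist (gm e (v, h)) (gm e (w, h)) < D) : Itp e v₀ h v w 1 = w := by
  rw [Itp, gG_one F hB hf, gG_one F hB hg, chd_gm F hB v₀ w h0 h1]

include F hB in
/-- the interpolated points -/
theorem Itp_dist {v w : UT E M} {κ s : ℝ} (hf : dist (foot v) (foot w) ≤ κ)
    (hg : dist (gm e (v, h)) (gm e (w, h)) ≤ κ) (hκ : κ < D) (hs : s ∈ Icc (0 : ℝ) 1) :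
    dist (foot v) (gG e (foot v) (foot w) s) ≤ κ ∧
      dist (gm e (v, h)) (gG e (gm e (v, h)) (gm e (w, h)) s) ≤ κ := by
  constructor
  · rw [dist_gG_left F hB (hf.trans_lt hκ) hs]
    exact (mul_le_of_le_one_left dist_nonneg hs.2).trans hf
  · rw [dist_gG_left F hB (hg.trans_lt hκ) hs]
    exact (mul_le_of_le_one_left dist_nonneg hs.2).trans hg

include F hB h0 h1 in
/-- the interpolated vector is close to the first one -/
theorem Itp_near {v w : UT E M} {κ s : ℝ} (k1 : 2 * κ < h) (k2 : 2 * κ < D - h)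
    (hf : dist (foot v) (foot w) ≤ κ) (hg : dist (gm e (v, h)) (gm e (w, h)) ≤ κ)
    (hs : s ∈ Icc (0 : ℝ) 1) :
    dist (foot v) (foot (Itp e v₀ h v w s)) ≤ 3 * κ ∧
      dist (gm e (v, h)) (gm e (Itp e v₀ h v w s, h)) ≤ 3 * κ := by
  have hκ : 0 ≤ κ := dist_nonneg.trans hf
  obtain ⟨h2, h3⟩ := Itp_dist F hB hf hg (by linarith) hs
  obtain ⟨h4, h5, h6, h7⟩ := chd_near F hB v₀ h0 h1 k1 k2 h2 h3
  refine ⟨?_, h7⟩
  rw [Itp, h6]
  linarith

include F hB h0 h1 in
/-- the interpolation is smooth -/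
theorem At_Itp {κ : ℝ} (k1 : 2 * κ < h) (k2 : 2 * κ < D - h) {V : Type} [NormedAddCommGroup V]
    [NormedSpace ℝ V] [FiniteDimensional ℝ V] {v w : V → UT E M} {r : V → ℝ} {s : V}
    (hv : (dUT E M).At v s) (hw : (dUT E M).At w s) (hr : Sm r s)
    (hf : dist (foot (v s)) (foot (w s)) ≤ κ) (hg : dist (gm e (v s, h)) (gm e (w s, h)) ≤ κ)
    (hs : r s ∈ Icc (0 : ℝ) 1) :
    (dUT E M).At (fun t => Itp e v₀ h (v t) (w t) (r t)) s := by
  have hκ : 0 ≤ κ := dist_nonneg.trans hf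
  obtain ⟨h2, h3⟩ := Itp_dist F hB hf hg (by linarith) hs
  obtain ⟨h4, h5, h6, h7⟩ := chd_near F hB v₀ h0 h1 k1 k2 h2 h3
  have hc : Sm (fun _ : V => h) s := Sm.of_contDiff contDiff_const s
  refine At_chd F hB v₀ ?_ ?_ h4 h5
  · exact At_gG F hB (map_foot hv) (map_foot hw) hr (hf.trans_lt (by linarith))
  · exact At_gG F hB (map_gm F (u := fun y => (v y, h)) ⟨hv, hc⟩)
      (map_gm F (u := fun y => (w y, h)) ⟨hw, hc⟩) hr (hg.trans_lt (by linarith))

end Itp

end

end Vale.Agent.P231.S3R
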