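import Vale.Agent.P231.S3R.Chd

/-!
# P231, stage 3, (N1), part 2: the equivariant direction map of a family of loops which are close to
closed geodesics

`B` has a smooth circle action `A` (period one), `C : B → M` is smooth, the loop of `b` is
`t ↦ C (A.φ b t)`. If it is `ρ`-close to a geodesic `t ↦ gm (v, 2 D t)` (predicate `Cl`), then the
geodesic can be chosen smoothly and equivariantly.
-/

set_option maxSynthPendingDepth 3
set_option linter.unusedSectionVars false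
set_option linter.unusedVariables false

open Bundle Manifold Set Filter Module
open scoped ContDiff Manifold Topology

namespace Vale.Agent.P231.S3R

noncomputable section

open Vale.Agent.P234 Vale.Agent.P231 Vale.Agent.P231.H775 Vale.Agent.P231.Fm Vale.Agent.P231.W
  Vale.Agent.P231.WD3 Vale.Agent.P231.H766

section Defs

variable {E : Type*} [NormedAddCommGroup E] [NormedSpace ℝ E] [FiniteDimensional ℝ E]
  {M : Type*} [MetricSpace M] [ChartedSpace E M] [IsManifold 𝓘(ℝ, E) ∞ M]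
  [RiemannianBundle (fun x : M => TangentSpace 𝓘(ℝ, E) x)]
  [IsContMDiffRiemannianBundle 𝓘(ℝ, E) ∞ E (fun x : M => TangentSpace 𝓘(ℝ, E) x)]
  {B : Type*} {DB : Dif B}

/-- the loop of `b` is `κ`-close to the geodesic of `v` -/
def Nr (e : ∀ x : M, TangentSpace 𝓘(ℝ, E) x → M) (D : ℝ) (A : CAct DB) (C : B → M) (b : B)
    (v : UT E M) (κ : ℝ) : Prop :=
  ∀ t : ℝ, dist (C (A.φ b t)) (gm e (v, 2 * D * t)) < κ

/-- the loop of `b` is `κ`-close to a closed geodesic -/
def Cl (e : ∀ x : M, TangentSpace 𝓘(ℝ, E) x → M) (D : ℝ) (A : CAct DB) (C : B → M) (κ : ℝ)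
    (b : B) : Prop := ∃ v : UT E M, Nr e D A C b v κ

/-- the direction of the initial chord of the loop of `b` -/
def r0 (e : ∀ x : M, TangentSpace 𝓘(ℝ, E) x → M) (v₀ : UT E M) (A : CAct DB) (C : B → M)
    (b : B) : UT E M := chd e v₀ (C b) (C (A.φ b (1 / 4)))

end Defs

variable {E : Type*} [NormedAddCommGroup E] [NormedSpace ℝ E] [FiniteDimensional ℝ E]
  {M : Type*} [MetricSpace M] [ChartedSpace E M] [IsManifold 𝓘(ℝ, E) ∞ M]
  [RiemannianBundle (fun x : M => TangentSpace 𝓘(ℝ, E) x)]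
  [IsContMDiffRiemannianBundle 𝓘(ℝ, E) ∞ E (fun x : M => TangentSpace 𝓘(ℝ, E) x)]
  {e : ∀ x : M, TangentSpace 𝓘(ℝ, E) x → M}
  [CompactSpace M] [ConnectedSpace M] [IsRiemannianManifold 𝓘(ℝ, E) M]
  {B : Type*} {DB : Dif B} {A : CAct DB} {C : B → M}

theorem Nr.mono {D : ℝ} {b : B} {v : UT E M} {κ κ' : ℝ} (h : Nr e D A C b v κ) (hκ : κ ≤ κ') :
    Nr e D A C b v κ' := fun t => (h t).trans_le hκ

theorem Nr.phi (F : Facts e) {D : ℝ} {b : B} {v : UT E M} {κ : ℝ} (h : Nr e D A C b v κ) (s : ℝ) :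
    Nr e D A C (A.φ b s) (phi F (v, 2 * D * s)) κ := fun t => by
  rw [A.add, gm_phi, ← mul_add]
  exact h (s + t)

theorem Cl.phi (F : Facts e) {D : ℝ} {b : B} {κ : ℝ} (h : Cl e D A C κ b) (s : ℝ) :
    Cl e D A C κ (A.φ b s) := by
  obtain ⟨v, hv⟩ := h
  exact ⟨_, hv.phi F s⟩

theorem Cl.mono {D : ℝ} {b : B} {κ κ' : ℝ} (h : Cl e D A C κ b) (hκ : κ ≤ κ') :
    Cl e D A C κ' b := by
  obtain ⟨v, hv⟩ := h
  exact ⟨v, hv.mono hκ⟩

theorem Nr.zero (F : Facts e) {D : ℝ} {b : B} {v : UT E M} {κ : ℝ} (h : Nr e D A C b v κ) :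
    dist (foot v) (C b) < κ := by
  have h1 := h 0
  rw [A.zero, mul_zero, gm_zero F, dist_comm] at h1
  exact h1

theorem Nr.quarter {D : ℝ} {b : B} {v : UT E M} {κ : ℝ} (h : Nr e D A C b v κ) :
    dist (gm e (v, D / 2)) (C (A.φ b (1 / 4))) < κ := by
  have h1 := h (1 / 4)
  rw [show 2 * D * (1 / 4) = D / 2 by ring, dist_comm] at h1
  exact h1

/-- the initial chord is a good approximation -/
theorem r0_near (F : Facts e) {D : ℝ} (hD : 0 < D) (hB : InjGE e D)
    (hdiam : ∀ p q : M, dist p q ≤ D) (v₀ : UT E M) {η : ℝ} (hη : 0 < η) :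
    ∃ ρ : ℝ, 0 < ρ ∧ ρ ≤ η ∧ ∀ (C : B → M) (b : B), Cl e D A C ρ b →
      0 < dist (C b) (C (A.φ b (1 / 4))) ∧ dist (C b) (C (A.φ b (1 / 4))) < D ∧
      Nr e D A C b (r0 e v₀ A C b) η := by
  obtain ⟨κ, hκ, hu⟩ := unif F hD hB hdiam (h := D / 2) (by linarith) (by linarith) (half_pos hη)
  refine ⟨min (κ / 3) (min (η / 2) (D / 8)), by positivity,
    (min_le_right _ _).trans ((min_le_left _ _).trans (by linarith)), fun C b hb => ?_⟩
  obtain ⟨v, hv⟩ := hb
  have l1 : min (κ / 3) (min (η / 2) (D / 8)) ≤ κ / 3 := min_le_left _ _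
  have l2 : min (κ / 3) (min (η / 2) (D / 8)) ≤ η / 2 :=
    (min_le_right _ _).trans (min_le_left _ _)
  have l3 : min (κ / 3) (min (η / 2) (D / 8)) ≤ D / 8 :=
    (min_le_right _ _).trans (min_le_right _ _)
  set ρ := min (κ / 3) (min (η / 2) (D / 8)) with hρ
  obtain ⟨h1, h2, h3, h4⟩ := chd_near F hB v₀ (h := D / 2) (κ := ρ) (by linarith) (by linarith)
    (by linarith) (by linarith) (hv.zero F).le hv.quarter.le
  refine ⟨h1, h2, fun t => ?_⟩
  have h5 : dist (foot v) (foot (r0 e v₀ A C b)) ≤ κ := by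
    rw [r0, h3]
    exact (hv.zero F).le.trans (by linarith)
  have h6 := hu v (r0 e v₀ A C b) h5 (h4.trans (by linarith)) (2 * D * t)
  have h7 := dist_triangle (C (A.φ b t)) (gm e (v, 2 * D * t)) (gm e (r0 e v₀ A C b, 2 * D * t))
  have h8 := hv t
  linarith

/-- interpolation between two approximating geodesics -/
theorem itp_near (F : Facts e) {D : ℝ} (hD : 0 < D) (hB : InjGE e D)
    (hdiam : ∀ p q : M, dist p q ≤ D) (v₀ : UT E M) {η : ℝ} (hη : 0 < η) :
    ∃ κ : ℝ, 0 < κ ∧ κ ≤ η ∧ κ ≤ D / 16 ∧ ∀ (C : B → M) (b : B) (v w : UT E M) (s : ℝ),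
      Nr e D A C b v κ → Nr e D A C b w κ → s ∈ Icc (0 : ℝ) 1 →
      Nr e D A C b (Itp e v₀ (D / 2) v w s) η := by
  obtain ⟨κ, hκ, hu⟩ := unif F hD hB hdiam (h := D / 2) (by linarith) (by linarith) (half_pos hη)
  refine ⟨min (κ / 6) (min (η / 2) (D / 16)), by positivity,
    (min_le_right _ _).trans ((min_le_left _ _).trans (by linarith)),
    (min_le_right _ _).trans (min_le_right _ _), fun C b v w s hv hw hs => ?_⟩
  have l1 : min (κ / 6) (min (η / 2) (D / 16)) ≤ κ / 6 := min_le_left _ _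
  have l2 : min (κ / 6) (min (η / 2) (D / 16)) ≤ η / 2 :=
    (min_le_right _ _).trans (min_le_left _ _)
  have l3 : min (κ / 6) (min (η / 2) (D / 16)) ≤ D / 16 :=
    (min_le_right _ _).trans (min_le_right _ _)
  set ρ := min (κ / 6) (min (η / 2) (D / 16)) with hρ
  have d1 : dist (foot v) (foot w) ≤ 2 * ρ := by
    have := dist_triangle_right (foot v) (foot w) (C b)
    linarith [hv.zero F, hw.zero F]
  have d2 : dist (gm e (v, D / 2)) (gm e (w, D / 2)) ≤ 2 * ρ := by
    have := dist_triangle_right (gm e (v, D / 2)) (gm e (w, D / 2)) (C (A.φ b (1 / 4)))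
    linarith [hv.quarter, hw.quarter]
  obtain ⟨h1, h2⟩ := Itp_near F hB v₀ (h := D / 2) (κ := 2 * ρ) (by linarith) (by linarith)
    (by linarith) (by linarith) d1 d2 hs
  intro t
  have h6 := hu v (Itp e v₀ (D / 2) v w s) (h1.trans (by linarith)) (h2.trans (by linarith))
    (2 * D * t)
  have h7 := dist_triangle (C (A.φ b t)) (gm e (v, 2 * D * t))
    (gm e (Itp e v₀ (D / 2) v w s, 2 * D * t))
  have h8 := hv t
  linarith

/-! ### one stage -/

/-- smoothness of `r` at the points of `U` -/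
def SmOn (DB : Dif B) (U : B → Prop) (r : B → UT E M) : Prop :=
  ∀ {V : Type} [NormedAddCommGroup V] [NormedSpace ℝ V] [FiniteDimensional ℝ V] {u : V → B}
    {x : V}, DB.At u x → U (u x) → (dUT E M).At (fun y => r (u y)) x

/-- the stage formula; `τ` is the time of `b` on its orbit -/
def Rst (F : Facts e) (D : ℝ) (v₀ : UT E M) (A : CAct DB) (C : B → M) (r : B → UT E M) (b : B)
    (τ s : ℝ) : UT E M :=
  phi F (Itp e v₀ (D / 2) (phi F (r b, 2 * D * (-τ))) (r0 e v₀ A C (A.φ b (-τ))) s, 2 * D * τ)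

theorem phi_int (F : Facts e) {D : ℝ} (hD : 0 < D) (hB : InjGE e D)
    (hdiam : ∀ p q : M, dist p q ≤ D) (v : UT E M) (t : ℝ) (n : ℤ) :
    phi F (v, 2 * D * (t + n)) = phi F (v, 2 * D * t) :=
  (WF.actUT F hD hB hdiam).add_int v t n

theorem phi_neg (F : Facts e) {D : ℝ} (v : UT E M) (t : ℝ) :
    phi F (phi F (v, 2 * D * (-t)), 2 * D * t) = v := by
  rw [phi_add, ← mul_add, neg_add_cancel, mul_zero, phi_zero]

theorem Rst_add_int (F : Facts e) {D : ℝ} (hD : 0 < D) (hB : InjGE e D)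
    (hdiam : ∀ p q : M, dist p q ≤ D) (v₀ : UT E M) (r : B → UT E M) (b : B) (τ s : ℝ) (n : ℤ) :
    Rst F D v₀ A C r b (τ + n) s = Rst F D v₀ A C r b τ s := by
  have h1 : -(τ + n) = -τ + ((-n : ℤ) : ℝ) := by push_cast; ring
  rw [Rst, Rst, phi_int F hD hB hdiam, h1, phi_int F hD hB hdiam, A.add_int]

theorem Rst_zero (F : Facts e) {D : ℝ} (hD : 0 < D) (hB : InjGE e D) (v₀ : UT E M)
    (r : B → UT E M) (b : B) (τ : ℝ) : Rst F D v₀ A C r b τ 0 = r b := by
  rw [Rst, Itp_zero F hB v₀ (by linarith) (by linarith), phi_neg]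

theorem Rst_one (F : Facts e) {D : ℝ} (hD : 0 < D) (hB : InjGE e D) (v₀ : UT E M)
    {r : B → UT E M} {b : B} {τ κ : ℝ} (hκ : κ ≤ D / 16) (h1 : Nr e D A C b (r b) κ)
    (h2 : Nr e D A C (A.φ b (-τ)) (r0 e v₀ A C (A.φ b (-τ))) κ) :
    Rst F D v₀ A C r b τ 1 = phi F (r0 e v₀ A C (A.φ b (-τ)), 2 * D * τ) := by
  have h3 := h1.phi F (-τ)
  rw [Rst, Itp_one F hB v₀ (by linarith) (by linarith)]
  · have := dist_triangle_right (foot (phi F (r b, 2 * D * (-τ))))
      (foot (r0 e v₀ A C (A.φ b (-τ)))) (C (A.φ b (-τ)))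
    linarith [h3.zero F, h2.zero F]
  · have := dist_triangle_right (gm e (phi F (r b, 2 * D * (-τ)), D / 2))
      (gm e (r0 e v₀ A C (A.φ b (-τ)), D / 2)) (C (A.φ (A.φ b (-τ)) (1 / 4)))
    linarith [h3.quarter, h2.quarter]

theorem chB_mem (f : B → ℂ) (δ : ℝ) (b : B) : chB f δ b ∈ Icc (0 : ℝ) 1 :=
  ⟨stp_nonneg _, stp_le_one _⟩

/-- **The direction maps, by stages.** -/
theorem stages (F : Facts e) {D : ℝ} (hD : 0 < D) (hB : InjGE e D)
    (hdiam : ∀ p q : M, dist p q ≤ D) (v₀ : UT E M) {δ : ℝ} (hδ : 0 < δ) (L : List (B → ℂ))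
    (hL : ∀ f ∈ L, DB.Map (Dif.lin ℂ) f ∧ Equi A f) :
    ∀ η : ℝ, 0 < η → ∃ ρ : ℝ, 0 < ρ ∧ ∀ C : B → M, DB.Map (dM E M) C →
      ∃ r : B → UT E M, SmOn DB (Cl e D A C ρ) r ∧
        (∀ b, Cl e D A C ρ b → Nr e D A C b (r b) η) ∧
        ∀ b, Cl e D A C ρ b → (∃ f ∈ L, δ ≤ ‖f b‖) → ∀ t,
          r (A.φ b t) = phi F (r b, 2 * D * t) := by
  induction L with
  | nil =>
    intro η hη
    obtain ⟨ρ, hρ, -, h1⟩ := r0_near (A := A) F hD hB hdiam v₀ hη
    refine ⟨ρ, hρ, fun C hC => ⟨r0 e v₀ A C, ?_, fun b hb => (h1 C b hb).2.2,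
      fun b _ ⟨f, hf, _⟩ => absurd hf (by simp)⟩⟩
    intro V _ _ _ u x hu hx
    obtain ⟨h2, h3, -⟩ := h1 C (u x) hx
    exact At_chd F hB v₀ (hC hu) (hC (A.at_phi hu (Sm.of_contDiff contDiff_const x))) h2 h3
  | cons f L ih =>
    intro η hη
    obtain ⟨κ, hκ, hκη, hκD, h1⟩ := itp_near (A := A) F hD hB hdiam v₀ hη
    obtain ⟨ρ₁, hρ₁, h2⟩ := ih (fun f' hf' => hL f' (List.mem_cons_of_mem _ hf')) κ hκ
    obtain ⟨ρ₂, hρ₂, -, h3⟩ := r0_near (A := A) F hD hB hdiam v₀ hκ
    refine ⟨min ρ₁ ρ₂, lt_min hρ₁ hρ₂, fun C hC => ?_⟩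
    obtain ⟨r, hr1, hr2, hr3⟩ := h2 C hC
    have hf := hL f List.mem_cons_self
    -- the points of the domain
    have m1 : ∀ {b}, Cl e D A C (min ρ₁ ρ₂) b → Cl e D A C ρ₁ b := fun h =>
      h.mono (min_le_left _ _)
    have m2 : ∀ {b}, Cl e D A C (min ρ₁ ρ₂) b → Cl e D A C ρ₂ b := fun h =>
      h.mono (min_le_right _ _)
    have near : ∀ {b}, Cl e D A C (min ρ₁ ρ₂) b → ∀ τ s, s ∈ Icc (0 : ℝ) 1 →
        Nr e D A C b (Rst F D v₀ A C r b τ s) η := by
      intro b hb τ s hs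
      have g1 := (hr2 b (m1 hb)).phi F (-τ)
      have g2 := (h3 C _ (m2 (hb.phi F (-τ)))).2.2
      have g3 := (h1 C _ _ _ s g1 g2 hs).phi F τ
      rw [A.add, neg_add_cancel, A.zero] at g3
      exact g3
    have hbr : ∀ {b} (h : f b ≠ 0) {τ : ℝ} (hτ : Ang (f b) τ) (s : ℝ),
        Rst F D v₀ A C r b (ang (f b)) s = Rst F D v₀ A C r b τ s := by
      intro b h τ hτ s
      obtain ⟨n, hn⟩ := Ang.unique h (Ang_ang (f b)) hτ
      rw [hn, Rst_add_int F hD hB hdiam]
    refine ⟨fun b => Rst F D v₀ A C r b (ang (f b)) (chB f δ b), ?_, fun b hb =>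
      near hb _ _ (chB_mem f δ b), ?_⟩
    · -- smoothness
      intro V _ _ _ u x hu hx
      have hX := siz_smooth (δ := δ) hf.1 hu
      have hr : (dUT E M).At (fun y => r (u y)) x := hr1 hu (m1 hx)
      by_cases h0 : f (u x) = 0
      · have g1 : siz f δ (u x) = 0 := by rw [siz, h0]; simp
        have g2 : ∀ᶠ y in 𝓝 x, siz f δ (u y) < 1 / 3 :=
          hX.continuousAt.eventually_lt_const (show siz f δ (u x) < 1 / 3 by rw [g1]; norm_num)
        refine (dUT E M).congr hr ?_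
        filter_upwards [g2] with y hy
        have g3 : chB f δ (u y) = 0 := stp_of_le hy.le
        rw [g3, Rst_zero F hD hB]
      · have g1 : Sm (fun y => f (u y)) x := hf.1 hu
        obtain ⟨τ, hτ, hτ2⟩ := exists_branch g1 h0
        have g2 : ∀ᶠ y in 𝓝 x, f (u y) ≠ 0 := g1.continuousAt.eventually_ne h0
        have hnτ : Sm (fun y => -τ y) x := by
          filter_upwards [hτ] with y hy using hy.neg
        have hs : Sm (fun y => chB f δ (u y)) x := by
          have := Sm_stp hX 1 0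
          refine this.congr ?_
          filter_upwards with y
          rw [one_mul, add_zero, chB]
        have hmul : ∀ {τ : V → ℝ}, Sm τ x → Sm (fun y => 2 * D * τ y) x := by
          intro τ hτ
          filter_upwards [hτ] with y hy using contDiffAt_const.mul hy
        have a1 : (dUT E M).At (fun y => phi F (r (u y), 2 * D * (-τ y))) x :=
          map_phi F (u := fun y => (r (u y), 2 * D * (-τ y))) ⟨hr, hmul hnτ⟩
        have hx' : Cl e D A C (min ρ₁ ρ₂) (A.φ (u x) (-τ x)) := hx.phi F _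
        obtain ⟨g4, g5, g6⟩ := h3 C _ (m2 hx')
        have a0 : DB.At (fun y => A.φ (u y) (-τ y)) x := A.at_phi hu hnτ
        have a2 : (dUT E M).At (fun y => r0 e v₀ A C (A.φ (u y) (-τ y))) x :=
          At_chd F hB v₀ (hC a0) (hC (A.at_phi a0 (Sm.of_contDiff contDiff_const x))) g4 g5
        have g7 := (hr2 _ (m1 hx)).phi F (-τ x)
        have d1 : dist (foot (phi F (r (u x), 2 * D * (-τ x))))
            (foot (r0 e v₀ A C (A.φ (u x) (-τ x)))) ≤ 2 * κ := by
          have := dist_triangle_right (foot (phi F (r (u x), 2 * D * (-τ x))))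
            (foot (r0 e v₀ A C (A.φ (u x) (-τ x)))) (C (A.φ (u x) (-τ x)))
          linarith [g7.zero F, g6.zero F]
        have d2 : dist (gm e (phi F (r (u x), 2 * D * (-τ x)), D / 2))
            (gm e (r0 e v₀ A C (A.φ (u x) (-τ x)), D / 2)) ≤ 2 * κ := by
          have := dist_triangle_right (gm e (phi F (r (u x), 2 * D * (-τ x)), D / 2))
            (gm e (r0 e v₀ A C (A.φ (u x) (-τ x)), D / 2))
            (C (A.φ (A.φ (u x) (-τ x)) (1 / 4)))
          linarith [g7.quarter, g6.quarter]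
        have a3 : (dUT E M).At (fun y => Itp e v₀ (D / 2) (phi F (r (u y), 2 * D * (-τ y)))
            (r0 e v₀ A C (A.φ (u y) (-τ y))) (chB f δ (u y))) x :=
          At_Itp F hB v₀ (h := D / 2) (κ := 2 * κ) (by linarith) (by linarith) (by linarith)
            (by linarith) a1 a2 hs d1 d2 (chB_mem f δ (u x))
        have a4 : (dUT E M).At (fun y => Rst F D v₀ A C r (u y) (τ y) (chB f δ (u y))) x :=
          map_phi F (u := fun y => (Itp e v₀ (D / 2) (phi F (r (u y), 2 * D * (-τ y)))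
            (r0 e v₀ A C (A.φ (u y) (-τ y))) (chB f δ (u y)), 2 * D * τ y)) ⟨a3, hmul hτ⟩
        refine (dUT E M).congr a4 ?_
        filter_upwards [g2, hτ2] with y k1 k2
        exact (hbr k1 k2 _).symm
    · -- equivariance
      intro b hb hex t
      have hb' : Cl e D A C (min ρ₁ ρ₂) (A.φ b t) := hb.phi F t
      have hsz : chB f δ (A.φ b t) = chB f δ b := by rw [chB, chB, siz_phi hf.2]
      change Rst F D v₀ A C r (A.φ b t) (ang (f (A.φ b t))) (chB f δ (A.φ b t)) =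
        phi F (Rst F D v₀ A C r b (ang (f b)) (chB f δ b), 2 * D * t)
      rw [hsz]
      by_cases h0 : f b = 0
      · have g1 : chB f δ b = 0 := by
          rw [chB, siz, h0]
          exact stp_of_le (by simp)
        rw [g1, Rst_zero F hD hB, Rst_zero F hD hB]
        obtain ⟨f', hf', hb2⟩ := hex
        rcases List.mem_cons.1 hf' with h5 | h5
        · rw [h5, h0, norm_zero] at hb2
          exact absurd hb2 (not_le.2 hδ)
        · exact hr3 b (m1 hb) ⟨f', h5, hb2⟩ t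
      · have g1 : f (A.φ b t) ≠ 0 := by
          rw [← norm_ne_zero_iff, hf.2.norm, norm_ne_zero_iff]
          exact h0
        rw [hbr g1 (hf.2.ang (Ang_ang (f b)) t)]
        set τ := ang (f b) with hτ
        have e1 : A.φ (A.φ b t) (-(τ + t)) = A.φ b (-τ) := by
          rw [A.add]
          congr 1
          ring
        by_cases hc : chB f δ b = 1
        · rw [hc, Rst_one F hD hB v₀ hκD (hr2 _ (m1 hb')) ?_,
            Rst_one F hD hB v₀ hκD (hr2 _ (m1 hb)) ?_, e1, phi_add, ← mul_add]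
          · exact (h3 C _ (m2 (hb.phi F _))).2.2
          · exact (h3 C _ (m2 (hb'.phi F _))).2.2
        · obtain ⟨f', hf', hb2⟩ := hex
          rcases List.mem_cons.1 hf' with h5 | h5
          · exfalso
            apply hc
            rw [h5] at hb2
            have h1 : 1 ≤ siz f δ b := by
              rw [siz, le_div_iff₀ (by positivity), one_mul]
              exact pow_le_pow_left₀ hδ.le hb2 2
            exact stp_of_ge (by linarith)
          · have g2 := hr3 b (m1 hb) ⟨f', h5, hb2⟩ t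
            rw [Rst, Rst, e1, g2, phi_add, ← mul_add,
              show t + -(τ + t) = -τ by ring, phi_add, ← mul_add]

/-- being close to a closed geodesic is an open condition, along plots -/
theorem Cl_open (F : Facts e) {D : ℝ} (hD : 0 < D) (hB : InjGE e D)
    (hdiam : ∀ p q : M, dist p q ≤ D) (hC : DB.Map (dM E M) C) {κ : ℝ} {V : Type}
    [NormedAddCommGroup V] [NormedSpace ℝ V] [FiniteDimensional ℝ V] {u : V → B} {x : V}
    (hu : DB.At u x) (hx : Cl e D A C κ (u x)) : ∀ᶠ y in 𝓝 x, Cl e D A C κ (u y) := by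
  obtain ⟨v, hv⟩ := hx
  have h1 : ∀ t ∈ Icc (0 : ℝ) 1, ∀ᶠ z : V × ℝ in 𝓝 (x, t),
      dist (C (A.φ (u z.1) z.2)) (gm e (v, 2 * D * z.2)) < κ := by
    intro t _
    have h2 : DB.At (fun z : V × ℝ => u z.1) (x, t) :=
      DB.comp (u := u) (g := Prod.fst) (x := (x, t)) hu (Sm.of_contDiff contDiff_fst _)
    have h3 : (dM E M).At (fun z : V × ℝ => C (A.φ (u z.1) z.2)) (x, t) :=
      hC (A.at_phi h2 (Sm.of_contDiff contDiff_snd _))
    have h4 : ContinuousAt (fun z : V × ℝ => C (A.φ (u z.1) z.2)) (x, t) :=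
      WF.plotsCont_dM E M h3
    have h6 : ContinuousAt (fun z : V × ℝ => gm e (v, 2 * D * z.2)) (x, t) := by
      have h7 : ContinuousAt (fun s : ℝ => gm e (v, s)) (2 * D * t) :=
        (continuous_gm_right F v).continuousAt
      exact ContinuousAt.comp (f := fun z : V × ℝ => 2 * D * z.2) (x := (x, t)) h7
        (continuous_const.mul continuous_snd).continuousAt
    exact (h4.dist h6).eventually_lt_const (hv t)
  have h2 := isCompact_Icc.eventually_forall_of_forall_eventually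
    (P := fun (y : V) (t : ℝ) => dist (C (A.φ (u y) t)) (gm e (v, 2 * D * t)) < κ) h1
  filter_upwards [h2] with y hy
  refine ⟨v, fun t => ?_⟩
  have h3 := hy (Int.fract t) ⟨Int.fract_nonneg t, (Int.fract_lt_one t).le⟩
  have h4 := A.add_int (u y) (Int.fract t) ⌊t⌋
  have h5 := phi_int F hD hB hdiam v (Int.fract t) ⌊t⌋
  rw [Int.fract_add_floor] at h4 h5
  rw [h4]
  have h6 : gm e (v, 2 * D * t) = gm e (v, 2 * D * Int.fract t) := congrArg foot h5
  rw [h6]
  exact h3

/-- **(N1)** On a compact space with a circle action without fixed points, the closed geodesics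
close to the loops of a smooth family can be chosen smoothly and equivariantly. -/
theorem exists_dir [TopologicalSpace B] [CompactSpace B]
    (hcont : ∀ f : B → ℂ, DB.Map (Dif.lin ℂ) f → Continuous f)
    (hsep : ∀ b, ∃ f : B → ℝ, DB.Map (Dif.lin ℝ) f ∧ fou A f b ≠ 0)
    (F : Facts e) {D : ℝ} (hD : 0 < D) (hB : InjGE e D)
    (hdiam : ∀ p q : M, dist p q ≤ D) (v₀ : UT E M) {η : ℝ} (hη : 0 < η) :
    ∃ ρ : ℝ, 0 < ρ ∧ ∀ C : B → M, DB.Map (dM E M) C →
      ∃ r : B → UT E M, SmOn DB (Cl e D A C ρ) r ∧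
        ∀ b, Cl e D A C ρ b → Nr e D A C b (r b) η ∧ ∀ t,
          r (A.φ b t) = phi F (r b, 2 * D * t) := by
  obtain ⟨δ, L, hδ, hL, hcov⟩ := exists_list (A := A) hcont hsep
  obtain ⟨ρ, hρ, h1⟩ := stages (A := A) F hD hB hdiam v₀ hδ L hL η hη
  refine ⟨ρ, hρ, fun C hC => ?_⟩
  obtain ⟨r, h2, h3, h4⟩ := h1 C hC
  exact ⟨r, h2, fun b hb => ⟨h3 b hb, h4 b hb (hcov b)⟩⟩

end

end Vale.Agent.P231.S3R
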